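import Vale.Agent.P101.ZStab.IntConn
import Vale.Agent.P101.ZStab.Main
import Vale.Agent.P101.ZStab.Bridge

/-! # P101: no characters on the central sequence algebra gives absorption of the Jiang–Su algebra -/

theorem Vale.Agent.Results.P101.ZStability.result :
    ∃ (Z : Type) (_ : CStarAlgebra Z), Vale.P101.ZSStatement.IsJiangSuAlgebra Z ∧
      ∀ (A : Type) [CStarAlgebra A] [TopologicalSpace.SeparableSpace A] [Nontrivial A]
        (ω : Ultrafilter ℕ), (ω : Filter ℕ) ≤ Filter.cofinite →
        Vale.P101.NoCharacters (Vale.P101.FOmega A ω) →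
        Vale.P101.ZSStatement.IsMinimalTensor A A Z :=
  Exists.elim (Vale.P101.ZS.zstable_uniform (Vale.P101.ZS.intConn Vale.P101.ZS.bandStmt))
    fun Z h => Exists.elim h fun i h => ⟨Z, i, Vale.P101.ZS.isJiangSuAlgebra_of h.1,
      fun A _ _ _ ω hω hc => Vale.P101.ZS.isMinimalTensor_of (h.2 A ω hω hc)⟩
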